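import Vale.Agent.P347.Quarter.Half
import Vale.Agent.P347.Quarter.Chain

/-! # P347: bounded observables under the operators of the algorithm -/

open MeasureTheory ProbabilityTheory Real
open scoped RealInnerProductSpace

namespace Vale.Agent.P347.Quarter.Phases

/-- An observable with values in `[-1, 1]`. -/
def Bdd {α : Type*} [MeasurableSpace α] (g : α → ℝ) : Prop := Measurable g ∧ ∀ x, |g x| ≤ 1

variable {α : Type*} [MeasurableSpace α]

lemma Bdd.comp {β : Type*} [MeasurableSpace β] {g : β → ℝ} (hg : Bdd g) {F : α → β}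
    (hF : Measurable F) : Bdd fun x => g (F x) :=
  ⟨hg.1.comp hF, fun x => hg.2 (F x)⟩

lemma Bdd.integrable {g : α → ℝ} (hg : Bdd g) (μ : Measure α) [IsFiniteMeasure μ] :
    Integrable g μ :=
  .of_bound hg.1.aestronglyMeasurable 1 (Filter.Eventually.of_forall hg.2)

lemma abs_integral_le_one {g : α → ℝ} (hg : ∀ x, |g x| ≤ 1) (μ : Measure α)
    [IsProbabilityMeasure μ] : |∫ x, g x ∂μ| ≤ 1 := by
  simpa using norm_integral_le_of_norm_le_const (C := 1) (μ := μ) (f := g)
    (Filter.Eventually.of_forall hg)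

lemma Bdd.average {β : Type*} [MeasurableSpace β] {F : α × β → ℝ} (hF : Bdd F) (μ : Measure β)
    [IsProbabilityMeasure μ] : Bdd fun x => ∫ y, F (x, y) ∂μ :=
  ⟨hF.1.stronglyMeasurable.integral_prod_right'.measurable,
    fun _ => abs_integral_le_one (fun _ => hF.2 _) μ⟩

/-- Two observables that agree up to `e` outside a set have close averages. -/
lemma int_close {μ : Measure α} [IsProbabilityMeasure μ] {u v ψ : α → ℝ} (hu : Bdd u)
    (hv : Bdd v) (hψ : Bdd ψ) {e : ℝ} (h : ∀ x, |u x - v x| ≤ e + 2 * ψ x) :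
    |(∫ x, u x ∂μ) - ∫ x, v x ∂μ| ≤ e + 2 * ∫ x, ψ x ∂μ := by
  rw [← integral_sub (hu.integrable μ) (hv.integrable μ)]
  refine (norm_integral_le_of_norm_le (f := fun x => u x - v x)
    (((integrable_const e).add ((hψ.integrable μ).const_mul 2)))
    (Filter.Eventually.of_forall h)).trans_eq ?_
  rw [integral_add' (integrable_const e) ((hψ.integrable μ).const_mul 2), integral_const,
    integral_const_mul]
  simp

variable {d N : ℕ} {V : Sp d → ℝ} {G : Sp d → Sp d} {H : Sp d → Sp d →L[ℝ] Sp d}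

/-- The outside of the ball of radius `R`. -/
noncomputable def outer (d : ℕ) (R : ℝ) : Sp d → ℝ := {x | R ≤ ‖x‖}.indicator 1

lemma bdd_outer (R : ℝ) : Bdd (outer d R) := by
  refine ⟨measurable_one.indicator (measurableSet_le measurable_const measurable_norm), fun x => ?_⟩
  by_cases hx : x ∈ {x : Sp d | R ≤ ‖x‖} <;> simp [outer, hx]

lemma outer_nonneg (R : ℝ) (x : Sp d) : 0 ≤ outer d R x :=
  Set.indicator_nonneg (fun _ _ => zero_le_one) x

lemma outer_sq (R : ℝ) : (fun x => outer d R x ^ 2) = outer d R := by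
  funext x
  by_cases hx : x ∈ {x : Sp d | R ≤ ‖x‖} <;> simp [outer, hx]

lemma close_outer {R e : ℝ} (he : 0 ≤ e) {u v : Sp d → ℝ} (hu : ∀ x, |u x| ≤ 1)
    (hv : ∀ x, |v x| ≤ 1) (h : ∀ x, ‖x‖ < R → |u x - v x| ≤ e) (x : Sp d) :
    |u x - v x| ≤ e + 2 * outer d R x := by
  rcases lt_or_ge ‖x‖ R with hx | hx
  · linarith [h x hx, outer_nonneg R x]
  · have := abs_sub (u x) (v x)
    have e1 : outer d R x = 1 := Set.indicator_of_mem (s := {x : Sp d | R ≤ ‖x‖}) hx 1
    linarith [hu x, hv x]

lemma bdd_fwd {g : Sp d → ℝ} (hg : Bdd g) (h : ℝ) : Bdd (fwd h g) :=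
  (hg.comp (F := fun p : Sp d × Sp d => (1 : ℝ) • p.1 + √h • p.2) (by fun_prop)).average _

lemma bdd_approx {Ω : Type} [MeasurableSpace Ω] (P : Measure Ω) [IsProbabilityMeasure P]
    {z : Ω → Sp d → Sp d} (hz : Measurable (Function.uncurry z)) (h : ℝ) {g : Sp d → ℝ}
    (hg : Bdd g) : Bdd (approx P h z g) :=
  ((bdd_fwd hg (h / 2)).comp (F := fun p : Sp d × Ω => z p.2 p.1)
    (hz.comp measurable_swap)).average P

lemma bdd_approx_iterate {Ω : Type} [MeasurableSpace Ω] (P : Measure Ω) [IsProbabilityMeasure P]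
    {z : Ω → Sp d → Sp d} (hz : Measurable (Function.uncurry z)) (h : ℝ) {g : Sp d → ℝ}
    (hg : Bdd g) (n : ℕ) : Bdd ((approx P h z)^[n] g) := by
  induction n with
  | zero => exact hg
  | succ n ih => rw [Function.iterate_succ_apply']; exact bdd_approx P hz h ih

lemma abs_prox_iterate (hV : IsPot V G H 1 2) {h : ℝ} (hh : 0 ≤ h) {g : Sp d → ℝ}
    (hg : ∀ x, |g x| ≤ 1) (n : ℕ) : ∀ y, |(prox V h)^[n] g y| ≤ 1 := by
  induction n with
  | zero => exact hg
  | succ n ih =>
    intro y
    rw [Function.iterate_succ_apply']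
    have := (isProb_rgo hV hh y).1
    exact abs_integral_le_one (fun _ => abs_integral_le_one (fun _ => ih _) _) _

lemma bdd_rgo (hV : IsPot V G H 1 2) {h : ℝ} (hh : 0 ≤ h) {g : Sp d → ℝ} (hg : Bdd g) :
    Bdd fun y => ∫ x, g x ∂rgo V h y := by
  refine ⟨?_, fun y => have := (isProb_rgo hV hh y).1; abs_integral_le_one hg.2 _⟩
  have hVc : Continuous V := continuous_iff_continuousAt.2 fun z => (hV.hasGrad z).continuousAt
  have he : (fun y => ∫ x, g x ∂rgo V h y) = fun y => ∫ z,
      exp (-V (y + √h • z)) / (∫ w, exp (-V (y + √h • w)) ∂gd d) * g (y + √h • z) ∂gd d := by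
    funext y
    rw [rgo, integral_map (by fun_prop) hg.1.aestronglyMeasurable, gibbs, integral_tilted]
    rfl
  have hI : Measurable fun y : Sp d => ∫ w, exp (-V (y + √h • w)) ∂gd d :=
    ((show Measurable fun p : Sp d × Sp d => exp (-V (p.1 + √h • p.2)) by fun_prop)
      |>.stronglyMeasurable.integral_prod_right' (ν := gd d)).measurable
  rw [he]
  refine (StronglyMeasurable.integral_prod_right' (ν := gd d) (f := fun p : Sp d × Sp d =>
    exp (-V (p.1 + √h • p.2)) / (∫ w, exp (-V (p.1 + √h • w)) ∂gd d) * g (p.1 + √h • p.2))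
    (Measurable.stronglyMeasurable ?_)).measurable
  exact ((show Measurable fun p : Sp d × Sp d => exp (-V (p.1 + √h • p.2)) by fun_prop).div
    (hI.comp measurable_fst)).mul (hg.1.comp (by fun_prop))

lemma integral_halfLaw (hV : IsPot V G H 1 2) {h : ℝ} (hh : 0 ≤ h) {g : Sp d → ℝ} (hg : Bdd g)
    (y : Sp d) : ∫ x, g x ∂halfLaw V h y = ∫ u, fwd (h / 2) g u ∂rgo V h y := by
  have := (isProb_rgo hV hh y).1
  rw [halfLaw, integral_map (by fun_prop) hg.1.aestronglyMeasurable,
    integral_prod _ ((hg.comp (F := fun p : Sp d × Sp d => p.1 + √(h / 2) • p.2)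
      (by fun_prop)).integrable _)]
  simp [fwd, smth]

lemma continuous_centre (hG : Continuous G) (h : ℝ) (M : ℕ) :
    Continuous fun y => centre G h M y := by
  unfold centre
  induction M with
  | zero => exact continuous_id
  | succ M ih =>
    simp only [Function.iterate_succ_apply', proxStep]
    exact continuous_id.sub ((hG.comp ih).const_smul h)

lemma continuous_halfStep (hV : IsPot V G H 1 2) (r : Rule N) (h : ℝ) (M : ℕ) :
    Continuous fun p : Sp d × Seed d => halfStep r G h M p.2 p.1 := by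
  have hG : Continuous G := hV.continuous_grad
  have hc : Continuous fun y => centre G h M y := continuous_centre hG h M
  unfold halfStep stepZ stepC evalPt qsamp whG
  fun_prop

lemma measurable_halfStep (hV : IsPot V G H 1 2) (r : Rule N) (h : ℝ) {k : Sp d → ℕ}
    (hk : Measurable k) :
    Measurable (Function.uncurry fun p y => halfStep r G h (k y) p y) := by
  have h1 : Measurable fun q : ℕ × (Seed d × Sp d) => halfStep r G h q.1 q.2.1 q.2.2 :=
    measurable_from_prod_countable_right fun m =>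
      (continuous_halfStep hV r h m).measurable.comp measurable_swap
  have h2 : Measurable fun q : Seed d × Sp d => (k q.2, q) :=
    (hk.comp measurable_snd).prodMk measurable_id
  exact h1.comp h2

lemma bdd_stageOp (hV : IsPot V G H 1 2) (r : Rule N) (h : ℝ) (M : ℕ) {g : Sp d → ℝ}
    (hg : Bdd g) : Bdd (stageOp r G h M g) :=
  (hg.comp (continuous_halfStep hV r h M).measurable).average _

lemma bdd_lastOp (hV : IsPot V G H 1 2) (h : ℝ) (M : ℕ) {g : Sp d → ℝ}
    (hg : Bdd g) : Bdd (lastOp G h M g) := by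
  have hG : Continuous G := hV.continuous_grad
  have hc : Continuous fun y => centre G h M y := continuous_centre hG h M
  exact (hg.comp (F := fun p : Sp d × Sp d => centre G h M p.1 + √h • p.2) (by fun_prop)).average _

lemma bdd_cascade (hV : IsPot V G H 1 2) (M K : ℕ) {f : Sp d → ℝ} (hf : Bdd f) :
    ∀ (r : ℕ → Rule N) (h : ℝ), Bdd (cascade G M r h K f) := by
  induction K with
  | zero => exact fun r h => bdd_lastOp hV h M hf
  | succ K ih => exact fun r h => bdd_stageOp hV (r 0) h M (ih _ _)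

end Vale.Agent.P347.Quarter.Phases
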